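import Vale.Agent.P057.R3.Bound

/-! An improved lower bound for `r_3(N)`. -/

namespace Vale.Agent.Results.P057.R3LowerConstant

open Filter

theorem result :
    (∀ C : ℝ, 2 * Real.sqrt (Real.logb 2 (2376 / 703)) < C →
      ∀ᶠ N : ℕ in atTop,
        (N : ℝ) * (2 : ℝ) ^ (-C * Real.sqrt (Real.logb 2 N)) ≤ rothNumberNat N) ∧
    2 * Real.sqrt (Real.logb 2 (2376 / 703)) < 2 * Real.sqrt (Real.logb 2 (24 / 7)) ∧
    2 * Real.sqrt (Real.logb 2 (24 / 7)) < 2 * Real.sqrt (Real.logb 2 (32 / 9)) := by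
  refine ⟨Vale.Agent.P057.R3.rothNumberNat_lower, ?_, ?_⟩ <;>
    refine mul_lt_mul_of_pos_left (Real.sqrt_lt_sqrt ?_ ?_) two_pos
  · exact Real.logb_nonneg one_lt_two (by norm_num)
  · exact Real.logb_lt_logb one_lt_two (by norm_num) (by norm_num)
  · exact Real.logb_nonneg one_lt_two (by norm_num)
  · exact Real.logb_lt_logb one_lt_two (by norm_num) (by norm_num)

end Vale.Agent.Results.P057.R3LowerConstant
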