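import Vale.Agent.P057.Gen.Main

/-! An improved constant in the Rankin lower bound for sets without `k`-term progressions. -/

namespace Vale.Agent.Results.P057.RankinConstant

open Filter

theorem result :
    (∀ n k : ℕ, 1 ≤ n → (∃ p : ℕ, p.Prime ∧ 2 ^ (n - 1) + 2 ≤ p ∧ p ≤ k) →
      ∀ C : ℝ, (n : ℝ) * (2 : ℝ) ^ (((n : ℝ) - 1) / 2)
          * (2 * 2 ^ (n - 1) / ((k : ℝ) + 2 ^ (n - 1))) ^ ((1 : ℝ) / n) < C →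
        ∀ᶠ N : ℕ in atTop, ∃ A : Finset ℕ, A ⊆ Finset.Icc 1 N ∧
          (∀ a d : ℕ, 0 < d → ∃ j < k, a + j * d ∉ A) ∧
          (N : ℝ) * (2 : ℝ) ^ (-C * (Real.logb 2 N) ^ ((1 : ℝ) / n)) ≤ A.card) ∧
    (∀ n : ℕ, 3 ≤ n → ∃ p : ℕ, p.Prime ∧ 2 ^ (n - 1) + 2 ≤ p ∧ p ≤ 2 ^ n) :=
  ⟨fun n k hn ⟨_, hp, hnp, hpk⟩ C hC =>
      Vale.Agent.P057.Gen.rankin_random hn hp hnp hpk C hC,
    fun _ hn => Vale.Agent.P057.Gen.exists_prime_between hn⟩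

end Vale.Agent.Results.P057.RankinConstant
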